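import Vale.Agent.P365.X.Reg
import Vale.Agent.P365.L1.Alg

/-!
# P365, TVX block X1: reverse Hölder inequality for Green functions in one or two potentials.
-/

set_option linter.all false

namespace P365L.X

open MeasureTheory Set Complex P365L
open scoped ENNReal Real

variable {ι : Type*} [Fintype ι] [DecidableEq ι]
variable {C0 c0 : ℝ} {ν : Measure ℝ} {A : Matrix ι ι ℝ} {W : ι → ℂ}

/-- domination by a Cauchy law gives the class `Reg` -/
theorem Reg.of_cauchy {K c : ℝ} (hK : 0 < K) (hc : 0 < c) [hp : IsProbabilityMeasure ν]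
    (h1 : ν ≤ ENNReal.ofReal K • nu)
    (h2 : ENNReal.ofReal c • (volume.restrict (Icc (-1 : ℝ) 1)) ≤ ν) : Reg K c ν := by
  refine ⟨hp, hK, hc, ?_, h2⟩
  refine h1.trans ?_
  have e : nu = volume.withDensity (ProbabilityTheory.cauchyPDF 0 1) :=
    ProbabilityTheory.cauchyMeasure_of_scale_ne_zero 0 one_ne_zero
  have hm : Measurable (ProbabilityTheory.cauchyPDF 0 1) :=
    ProbabilityTheory.measurable_cauchyPDF 0 1
  rw [e, ← withDensity_smul _ hm]
  refine withDensity_mono (Filter.Eventually.of_forall fun u => ?_)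
  simp only [Pi.smul_apply, smul_eq_mul, ProbabilityTheory.cauchyPDF]
  rw [← ENNReal.ofReal_mul hK.le]
  refine ENNReal.ofReal_le_ofReal ?_
  rw [ProbabilityTheory.cauchyPDFReal_def, div_eq_mul_inv]
  refine mul_le_mul_of_nonneg_left ?_ hK.le
  simp only [NNReal.coe_one, mul_one, sub_zero, one_pow]
  have h3 : π⁻¹ ≤ 1 := inv_le_one_of_one_le₀ (by linarith [Real.pi_gt_three])
  have h4 : (0 : ℝ) ≤ (u ^ 2 + 1)⁻¹ := by positivity
  calc π⁻¹ * (u ^ 2 + 1)⁻¹ ≤ 1 * (u ^ 2 + 1)⁻¹ := mul_le_mul_of_nonneg_right h3 h4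
    _ = (1 + u ^ 2)⁻¹ := by rw [one_mul, add_comm]

/-- the Green function as a ratio of affine functions of the potential at one site -/
theorem Gr_ratio (hA : A.IsSymm) (hW : ∀ x, (W x).im < 0) (a : ι) {w0 : ℂ} (hw : w0.im < 0)
    (lam : ℝ) (x y : ι) :
    ∃ N0 N1 D0 D1 : ℂ, (∀ u : ℝ, D0 + u * D1 ≠ 0) ∧
      ∀ u : ℝ, Gr A (Function.update W a (w0 + ((lam * u : ℝ) : ℂ))) x y =
        (N0 + u * N1) / (D0 + u * D1) := by
  set V := Function.update W a w0 with hV
  have hVn : ∀ x, (V x).im < 0 := by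
    intro x
    by_cases hx : x = a
    · subst hx
      rw [hV, Function.update_self]
      exact hw
    · rw [hV, Function.update_of_ne hx]
      exact hW x
  have hVa : V a = w0 := by rw [hV, Function.update_self]
  have h1 : ∀ u : ℝ, Function.update W a (w0 + ((lam * u : ℝ) : ℂ)) =
      Function.update V a (V a + ((lam * u : ℝ) : ℂ)) := by
    intro u
    rw [hVa, hV, Function.update_idem]
  have h2 : ∀ u : ℝ, (V a + ((lam * u : ℝ) : ℂ)).im < 0 := by
    intro u
    rw [Complex.add_im, Complex.ofReal_im, add_zero]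
    exact hVn a
  refine ⟨Gr A V x y, lam * (Gr A V x y * Gr A V a a - Gr A V x a * Gr A V a y), 1,
    lam * Gr A V a a, ?_, ?_⟩
  · intro u
    have := (Gr_update hA hVn a _ (h2 u)).1
    convert this using 1
    push_cast
    ring
  · intro u
    have h3 := Gr_update hA hVn a _ (h2 u)
    rw [h1 u, h3.2 x y]
    have h4 : (1 : ℂ) + u * (lam * Gr A V a a) ≠ 0 := by
      convert h3.1 using 1
      push_cast
      ring
    have h5 : (1 : ℂ) + ((lam * u : ℝ) : ℂ) * Gr A V a a = 1 + u * (lam * Gr A V a a) := by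
      push_cast
      ring
    rw [h5, eq_div_iff h4, sub_mul, mul_assoc _ _ (1 + (u : ℂ) * (lam * Gr A V a a)),
      div_mul_cancel₀ _ h4]
    push_cast
    ring

/-- **reverse Hölder for the Green function in one potential** -/
theorem RHG1 (h : Reg C0 c0 ν) {s : ℝ} (h0 : 0 < s) (h1 : s < 1 / 4) (hA : A.IsSymm)
    (hW : ∀ x, (W x).im < 0) (a : ι) {w0 : ℂ} (hw : w0.im < 0) (lam : ℝ) (x y : ι) :
    ∫⁻ u, ENNReal.ofReal (‖Gr A (Function.update W a (w0 + ((lam * u : ℝ) : ℂ))) x y‖ ^ (2 * s))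
        ∂ν ≤
      CR1 C0 c0 s ^ 2 * (∫⁻ u, ENNReal.ofReal
        (‖Gr A (Function.update W a (w0 + ((lam * u : ℝ) : ℂ))) x y‖ ^ s) ∂ν) ^ 2 := by
  obtain ⟨N0, N1, D0, D1, hD, hG⟩ := Gr_ratio hA hW a hw lam x y
  have := RH1_complex h h0 h1 (N0 := N0) (N1 := N1) hD
  simp only [hG, norm_div]
  exact this

/-- one-potential upper bound of a quantity `(r/|1 + u g|)^q` type: see `one_up_complex` -/
theorem Gr_up1 (h : Reg C0 c0 ν) {q : ℝ} (h0 : 0 < q) (h1 : q < 1 / 2) (hA : A.IsSymm)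
    (hW : ∀ x, (W x).im < 0) (a : ι) (lam : ℝ) (x y : ι) :
    ∫⁻ u, ENNReal.ofReal (‖Gr A (Function.update W a (W a + ((lam * u : ℝ) : ℂ))) x y‖ ^ q) ∂ν ≤
      Cu C0 q * ENNReal.ofReal ((max ‖Gr A W x y‖
        ‖lam * (Gr A W x y * Gr A W a a - Gr A W x a * Gr A W a y)‖ /
          max ‖(1 : ℂ)‖ ‖lam * Gr A W a a‖) ^ q) := by
  have h2 : ∀ u : ℝ, (W a + ((lam * u : ℝ) : ℂ)).im < 0 := by
    intro u
    rw [Complex.add_im, Complex.ofReal_im, add_zero]
    exact hW a
  have h4 : ∀ u : ℝ, (1 : ℂ) + u * (lam * Gr A W a a) ≠ 0 := by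
    intro u
    have h3 := (Gr_update hA hW a _ (h2 u)).1
    convert h3 using 1
    push_cast
    ring
  have hG : ∀ u : ℝ, Gr A (Function.update W a (W a + ((lam * u : ℝ) : ℂ))) x y =
      (Gr A W x y + u * (lam * (Gr A W x y * Gr A W a a - Gr A W x a * Gr A W a y))) /
        (1 + u * (lam * Gr A W a a)) := by
    intro u
    have h3 := Gr_update hA hW a _ (h2 u)
    have h5 : (1 : ℂ) + ((lam * u : ℝ) : ℂ) * Gr A W a a = 1 + u * (lam * Gr A W a a) := by
      push_cast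
      ring
    rw [h3.2 x y, h5, eq_div_iff (h4 u), sub_mul,
      mul_assoc _ _ (1 + (u : ℂ) * (lam * Gr A W a a)), div_mul_cancel₀ _ (h4 u)]
    push_cast
    ring
  have := one_up_complex h h0 h1 (N0 := Gr A W x y)
    (N1 := lam * (Gr A W x y * Gr A W a a - Gr A W x a * Gr A W a y)) h4
  simp only [hG, norm_div]
  exact this

end P365L.X
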