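import Vale.Agent.P365.MathlibUsed

/-!
# P365, TVX block X1: regularity of a law between `c0 Leb [-1,1]` and `C0/(1+u²)`;
fractional moments of ratios of affine functions, with values in arbitrary normed spaces.
-/

set_option linter.all false

namespace P365L.X

open MeasureTheory Set
open scoped ENNReal

/-- class of laws -/
structure Reg (C0 c0 : ℝ) (ν : Measure ℝ) : Prop where
  prob : IsProbabilityMeasure ν
  C0pos : 0 < C0
  c0pos : 0 < c0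
  up : ν ≤ volume.withDensity fun u : ℝ => ENNReal.ofReal (C0 / (1 + u ^ 2))
  low : ENNReal.ofReal c0 • (volume.restrict (Icc (-1 : ℝ) 1)) ≤ ν

variable {C0 c0 : ℝ} {ν : Measure ℝ}

theorem Reg.lintegral_le (h : Reg C0 c0 ν) {f : ℝ → ℝ≥0∞} (hf : Measurable f) :
    ∫⁻ u, f u ∂ν ≤ ∫⁻ u, ENNReal.ofReal (C0 / (1 + u ^ 2)) * f u := by
  refine (lintegral_mono' h.up le_rfl).trans (le_of_eq ?_)
  rw [lintegral_withDensity_eq_lintegral_mul _ (by fun_prop) hf]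
  rfl

theorem Reg.le_lintegral (h : Reg C0 c0 ν) (f : ℝ → ℝ≥0∞) :
    ENNReal.ofReal c0 * ∫⁻ u in Icc (-1 : ℝ) 1, f u ≤ ∫⁻ u, f u ∂ν := by
  rw [← smul_eq_mul, ← lintegral_smul_measure]
  exact lintegral_mono' h.low le_rfl

/-! ### constants -/

noncomputable def I1 (q : ℝ) : ℝ≥0∞ := ∫⁻ u : ℝ, ENNReal.ofReal ((1 + |u|) ^ (-(2 - 2 * q)))

noncomputable def I2 (q : ℝ) : ℝ≥0∞ := ∫⁻ x in Ioo (-1 : ℝ) 1, ENNReal.ofReal (|x| ^ (-q))

theorem I1_ne_top {q : ℝ} (hq : q < 1 / 2) : I1 q ≠ ∞ := by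
  have h1 : Integrable (fun u : ℝ => (1 + ‖u‖) ^ (-(2 - 2 * q))) := by
    refine integrable_one_add_norm ?_
    rw [Module.finrank_self]
    push_cast
    linarith
  have h2 := h1.lintegral_lt_top
  simpa [I1, Real.norm_eq_abs] using h2.ne

theorem I2_ne_top {q : ℝ} (hq : q < 1) : I2 q ≠ ∞ := by
  have h0 : IntegrableOn (fun x : ℝ => x ^ (-q)) (Ioc 0 1) := by
    have := intervalIntegral.intervalIntegrable_rpow' (a := 0) (b := 1) (r := -q) (by linarith)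
    rwa [intervalIntegrable_iff_integrableOn_Ioc_of_le zero_le_one] at this
  have h1 : ∫⁻ x in Ioc (0 : ℝ) 1, ENNReal.ofReal (|x| ^ (-q)) < ∞ := by
    have h2 := h0.lintegral_lt_top
    refine lt_of_le_of_lt (le_of_eq ?_) h2
    refine setLIntegral_congr_fun measurableSet_Ioc fun x hx => ?_
    rw [abs_of_pos hx.1]
  have h3 : ∫⁻ x in Ico (-1 : ℝ) 0, ENNReal.ofReal (|x| ^ (-q)) =
      ∫⁻ x in Ioc (0 : ℝ) 1, ENNReal.ofReal (|x| ^ (-q)) := by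
    rw [← lintegral_indicator measurableSet_Ico, ← lintegral_indicator measurableSet_Ioc,
      ← lintegral_neg_eq_self]
    refine lintegral_congr fun x => ?_
    by_cases hx : x ∈ Ioc (0 : ℝ) 1
    · have hx' : -x ∈ Ico (-1 : ℝ) 0 := ⟨by linarith [hx.2], by linarith [hx.1]⟩
      rw [indicator_of_mem hx, indicator_of_mem hx', abs_neg]
    · have hx' : -x ∉ Ico (-1 : ℝ) 0 := fun h => hx ⟨by linarith [h.2], by linarith [h.1]⟩
      rw [indicator_of_notMem hx, indicator_of_notMem hx']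
  have h4 : Ioo (-1 : ℝ) 1 ⊆ (Ico (-1 : ℝ) 0 ∪ Ioc 0 1) ∪ {0} := by
    intro x hx
    rcases lt_trichotomy x 0 with h | h | h
    · exact Or.inl (Or.inl ⟨hx.1.le, h⟩)
    · exact Or.inr h
    · exact Or.inl (Or.inr ⟨h, hx.2.le⟩)
  refine ne_of_lt (lt_of_le_of_lt (lintegral_mono_set h4) ?_)
  refine lt_of_le_of_lt (lintegral_union_le _ _ _) ?_
  have h5 : ∫⁻ x in {(0 : ℝ)}, ENNReal.ofReal (|x| ^ (-q)) = 0 := by
    rw [Measure.restrict_singleton]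
    simp
  rw [h5, add_zero]
  refine lt_of_le_of_lt (lintegral_union_le _ _ _) ?_
  rw [h3]
  exact ENNReal.add_lt_top.2 ⟨h1, h1⟩

/-- upper constant -/
noncomputable def Cu (C0 q : ℝ) : ℝ≥0∞ := ENNReal.ofReal C0 * (6 * I1 q + 8 * I2 q)

theorem Cu_ne_top {q : ℝ} (hq : q < 1 / 2) : Cu C0 q ≠ ∞ := by
  unfold Cu
  refine ENNReal.mul_ne_top ENNReal.ofReal_ne_top (ENNReal.add_ne_top.2 ⟨?_, ?_⟩)
  · exact ENNReal.mul_ne_top (by norm_num) (I1_ne_top hq)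
  · exact ENNReal.mul_ne_top (by norm_num) (I2_ne_top (by linarith))

/-- lower constant -/
noncomputable def cl (c0 : ℝ) : ℝ≥0∞ := ENNReal.ofReal c0 / 4

/-- the kernel -/
noncomputable def hk (q a u : ℝ) : ℝ :=
  (1 + |u|) ^ q + 2 * ((1 + |u|) ^ (2 * q) * |u - a| ^ (-q))

/-- the kernel is uniformly integrable -/
theorem hk_integral_le (h : Reg C0 c0 ν) {q : ℝ} (h0 : 0 < q) (h1 : q < 1 / 2) (a : ℝ) :
    ∫⁻ u, ENNReal.ofReal (hk q a u) ∂ν ≤ Cu C0 q := by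
  have hC := h.C0pos
  have hm : Measurable (fun u => ENNReal.ofReal (hk q a u)) := by
    unfold hk
    fun_prop
  refine (h.lintegral_le hm).trans ?_
  have hpt : ∀ u, ENNReal.ofReal (C0 / (1 + u ^ 2)) * ENNReal.ofReal (hk q a u) ≤
      ENNReal.ofReal C0 * (6 * ENNReal.ofReal ((1 + |u|) ^ (-(2 - 2 * q))) +
        8 * (Ioo (-1 : ℝ) 1).indicator (fun x => ENNReal.ofReal (|x| ^ (-q))) (u - a)) := by
    intro u
    have hu : 0 < 1 + |u| := by positivity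
    have hu1 : 1 ≤ 1 + |u| := by linarith [abs_nonneg u]
    have hsq : (1 + |u|) ^ 2 ≤ 2 * (1 + u ^ 2) := by
      have := sq_abs u
      nlinarith [sq_nonneg (1 - |u|)]
    have hden : 0 < 1 + u ^ 2 := by positivity
    -- the basic weights
    set P := (1 + |u|) ^ (2 * q) / (1 + u ^ 2) with hP
    have hP0 : 0 ≤ P := by positivity
    have hP1 : P ≤ 2 * (1 + |u|) ^ (-(2 - 2 * q)) := by
      rw [hP, div_le_iff₀ hden]
      have e1 : (1 + |u|) ^ (2 * q) = (1 + |u|) ^ (-(2 - 2 * q)) * (1 + |u|) ^ (2 : ℕ) := by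
        rw [← Real.rpow_natCast, ← Real.rpow_add hu]
        congr 1
        push_cast
        ring
      rw [e1]
      have := mul_le_mul_of_nonneg_left hsq (Real.rpow_nonneg hu.le (-(2 - 2 * q)))
      linarith
    have hP2 : P ≤ 2 := by
      rw [hP, div_le_iff₀ hden]
      have e1 : (1 + |u|) ^ (2 * q) ≤ (1 + |u|) ^ (2 : ℝ) :=
        Real.rpow_le_rpow_of_exponent_le hu1 (by linarith)
      rw [Real.rpow_two] at e1
      linarith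
    have hQ : (1 + |u|) ^ q ≤ (1 + |u|) ^ (2 * q) :=
      Real.rpow_le_rpow_of_exponent_le hu1 (by linarith)
    have hmain : C0 / (1 + u ^ 2) * hk q a u ≤ C0 * (3 * P + 2 * (P * 
        (Ioo (-1 : ℝ) 1).indicator (fun x => |x| ^ (-q)) (u - a))) := by
      have e1 : C0 / (1 + u ^ 2) * hk q a u = C0 * ((1 + |u|) ^ q / (1 + u ^ 2) +
          2 * (P * |u - a| ^ (-q))) := by
        rw [hP, hk]
        field_simp
      rw [e1]
      refine mul_le_mul_of_nonneg_left ?_ hC.le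
      have e2 : (1 + |u|) ^ q / (1 + u ^ 2) ≤ P := div_le_div_of_nonneg_right hQ hden.le
      have e3 : |u - a| ^ (-q) ≤ 1 + (Ioo (-1 : ℝ) 1).indicator (fun x => |x| ^ (-q)) (u - a) := by
        by_cases hx : u - a ∈ Ioo (-1 : ℝ) 1
        · rw [indicator_of_mem hx]
          linarith
        · rw [indicator_of_notMem hx, add_zero]
          have h3 : 1 ≤ |u - a| := by
            by_contra hc
            exact hx (abs_lt.1 (not_le.1 hc))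
          exact Real.rpow_le_one_of_one_le_of_nonpos h3 (by linarith)
      have e4 := mul_le_mul_of_nonneg_left e3 hP0
      linarith
    rw [← ENNReal.ofReal_mul (by positivity)]
    refine (ENNReal.ofReal_le_ofReal hmain).trans ?_
    rw [ENNReal.ofReal_mul hC.le]
    gcongr
    have hi0 : 0 ≤ (Ioo (-1 : ℝ) 1).indicator (fun x => |x| ^ (-q)) (u - a) :=
      indicator_nonneg (fun x _ => by positivity) _
    rw [ENNReal.ofReal_add (by positivity) (by positivity)]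
    refine add_le_add ?_ ?_
    · have e5 : 3 * P ≤ 6 * (1 + |u|) ^ (-(2 - 2 * q)) := by linarith
      refine (ENNReal.ofReal_le_ofReal e5).trans ?_
      rw [ENNReal.ofReal_mul (by norm_num)]
      simp
    · have e6 : 2 * (P * (Ioo (-1 : ℝ) 1).indicator (fun x => |x| ^ (-q)) (u - a)) ≤
          8 * (Ioo (-1 : ℝ) 1).indicator (fun x => |x| ^ (-q)) (u - a) := by
        have := mul_le_mul_of_nonneg_right hP2 hi0
        linarith
      refine (ENNReal.ofReal_le_ofReal e6).trans ?_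
      rw [ENNReal.ofReal_mul (by norm_num)]
      have e7 : ENNReal.ofReal ((Ioo (-1 : ℝ) 1).indicator (fun x => |x| ^ (-q)) (u - a)) =
          (Ioo (-1 : ℝ) 1).indicator (fun x => ENNReal.ofReal (|x| ^ (-q))) (u - a) := by
        by_cases hx : u - a ∈ Ioo (-1 : ℝ) 1
        · rw [indicator_of_mem hx, indicator_of_mem hx]
        · rw [indicator_of_notMem hx, indicator_of_notMem hx, ENNReal.ofReal_zero]
      rw [e7]
      simp
  refine (lintegral_mono hpt).trans (le_of_eq ?_)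
  have hmi : Measurable fun u : ℝ =>
      (Ioo (-1 : ℝ) 1).indicator (fun x => ENNReal.ofReal (|x| ^ (-q))) (u - a) := by
    have : Measurable ((Ioo (-1 : ℝ) 1).indicator (fun x => ENNReal.ofReal (|x| ^ (-q)))) :=
      Measurable.indicator (by fun_prop) measurableSet_Ioo
    exact this.comp (measurable_id.sub_const a)
  rw [lintegral_const_mul _ (by fun_prop), lintegral_add_left (by fun_prop),
    lintegral_const_mul _ (by fun_prop), lintegral_const_mul _ hmi, Cu, I1, I2]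
  congr 3
  rw [lintegral_sub_right_eq_self
    (fun x => (Ioo (-1 : ℝ) 1).indicator (fun x => ENNReal.ofReal (|x| ^ (-q))) x) a,
    lintegral_indicator measurableSet_Ioo]

/-! ### affine functions with values in normed spaces -/

variable {E F : Type*} [NormedAddCommGroup E] [NormedSpace ℝ E] [NormedAddCommGroup F]
  [NormedSpace ℝ F]

theorem real_rpow_add_le {x y s : ℝ} (hx : 0 ≤ x) (hy : 0 ≤ y) (h0 : 0 ≤ s) (h1 : s ≤ 1) :
    (x + y) ^ s ≤ x ^ s + y ^ s := by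
  have := NNReal.rpow_add_le_add_rpow ⟨x, hx⟩ ⟨y, hy⟩ h0 h1
  exact_mod_cast this

/-- there is a real centre for an affine line -/
theorem exists_center (D0 D1 : F) : ∃ a : ℝ, ∀ u : ℝ, |u - a| * ‖D1‖ ≤ 2 * ‖D0 + u • D1‖ := by
  by_cases h : D1 = 0
  · exact ⟨0, fun u => by rw [h, norm_zero, mul_zero]; positivity⟩
  · have hpos : 0 < ‖D1‖ := norm_pos_iff.2 h
    have hc : Continuous fun t : ℝ => ‖D0 + t • D1‖ := by fun_prop
    have ht : Filter.Tendsto (fun t : ℝ => ‖D0 + t • D1‖) (Filter.cocompact ℝ) Filter.atTop := by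
      have h1 : Filter.Tendsto (fun t : ℝ => ‖t‖ * ‖D1‖ - ‖D0‖) (Filter.cocompact ℝ)
          Filter.atTop := by
        have h2 := (tendsto_norm_cocompact_atTop (E := ℝ)).atTop_mul_const hpos
        exact Filter.tendsto_atTop_add_const_right _ (-‖D0‖) h2
      refine Filter.tendsto_atTop_mono (fun t => ?_) h1
      have h3 : ‖t • D1‖ ≤ ‖D0 + t • D1‖ + ‖D0‖ := by
        have := norm_sub_le (D0 + t • D1) D0
        rwa [add_sub_cancel_left] at this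
      rw [norm_smul] at h3
      linarith
    obtain ⟨a, ha⟩ := hc.exists_forall_le ht
    refine ⟨a, fun u => ?_⟩
    have h1 := ha u
    have h2 : ‖(u - a) • D1‖ ≤ ‖D0 + u • D1‖ + ‖D0 + a • D1‖ := by
      have : (u - a) • D1 = (D0 + u • D1) - (D0 + a • D1) := by
        rw [sub_smul]; abel
      rw [this]
      exact norm_sub_le _ _
    rw [norm_smul, Real.norm_eq_abs] at h2
    linarith

/-- pointwise bound of the ratio -/
theorem ratio_le (N0 N1 : E) (D0 D1 : F) : ∃ a : ℝ, ∀ u : ℝ, u ≠ a → ∀ q : ℝ, 0 < q → q ≤ 1 →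
    (‖N0 + u • N1‖ₑ / ‖D0 + u • D1‖ₑ) ^ q ≤
      ENNReal.ofReal (hk q a u) * (‖(N0, N1)‖ₑ / ‖(D0, D1)‖ₑ) ^ q := by
  obtain ⟨a, ha⟩ := exists_center D0 D1
  refine ⟨a, fun u hu q h0 h1 => ?_⟩
  have hua : 0 < |u - a| := abs_pos.2 (sub_ne_zero.2 hu)
  have hu1 : 0 < 1 + |u| := by positivity
  set R : ℝ := (1 + |u|) * (1 + 2 * (1 + |u|) / |u - a|) with hR
  have hR0 : 0 < R := by positivity
  -- numerator
  have hN : ‖N0 + u • N1‖ ≤ (1 + |u|) * ‖(N0, N1)‖ := by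
    have e1 : ‖N0‖ ≤ ‖(N0, N1)‖ := norm_fst_le (N0, N1)
    have e2 : ‖N1‖ ≤ ‖(N0, N1)‖ := norm_snd_le (N0, N1)
    calc ‖N0 + u • N1‖ ≤ ‖N0‖ + ‖u • N1‖ := norm_add_le _ _
      _ = ‖N0‖ + |u| * ‖N1‖ := by rw [norm_smul, Real.norm_eq_abs]
      _ ≤ ‖(N0, N1)‖ + |u| * ‖(N0, N1)‖ := by gcongr
      _ = _ := by ring
  -- denominator
  have hD : ‖(D0, D1)‖ ≤ (1 + 2 * (1 + |u|) / |u - a|) * ‖D0 + u • D1‖ := by
    have e1 : ‖D1‖ ≤ 2 / |u - a| * ‖D0 + u • D1‖ := by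
      have := ha u
      rw [div_mul_eq_mul_div, le_div_iff₀ hua]
      linarith
    have e2 : ‖D0‖ ≤ ‖D0 + u • D1‖ + |u| * ‖D1‖ := by
      have := norm_sub_le (D0 + u • D1) (u • D1)
      rwa [add_sub_cancel_right, norm_smul, Real.norm_eq_abs] at this
    have e3 : ‖D0 + u • D1‖ + (1 + |u|) * ‖D1‖ ≤
        (1 + 2 * (1 + |u|) / |u - a|) * ‖D0 + u • D1‖ := by
      have := mul_le_mul_of_nonneg_left e1 hu1.le
      calc ‖D0 + u • D1‖ + (1 + |u|) * ‖D1‖ ≤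
            ‖D0 + u • D1‖ + (1 + |u|) * (2 / |u - a| * ‖D0 + u • D1‖) := by linarith
        _ = _ := by ring
    have e4 : (0 : ℝ) ≤ ‖D0 + u • D1‖ := norm_nonneg _
    have e5 : 0 ≤ |u| * ‖D1‖ := by positivity
    rw [Prod.norm_def]
    refine max_le ?_ ?_
    · refine le_trans ?_ e3
      simp only
      linarith [norm_nonneg D1]
    · refine le_trans ?_ e3
      simp only
      linarith
  -- ENNReal form
  have hNe : ‖N0 + u • N1‖ₑ ≤ ENNReal.ofReal (1 + |u|) * ‖(N0, N1)‖ₑ := by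
    rw [← ofReal_norm_eq_enorm, ← ofReal_norm_eq_enorm, ← ENNReal.ofReal_mul hu1.le]
    exact ENNReal.ofReal_le_ofReal hN
  have hDe : ‖(D0, D1)‖ₑ ≤ ENNReal.ofReal (1 + 2 * (1 + |u|) / |u - a|) * ‖D0 + u • D1‖ₑ := by
    rw [← ofReal_norm_eq_enorm, ← ofReal_norm_eq_enorm, ← ENNReal.ofReal_mul (by positivity)]
    exact ENNReal.ofReal_le_ofReal hD
  have hratio : ‖N0 + u • N1‖ₑ / ‖D0 + u • D1‖ₑ ≤
      ENNReal.ofReal R * (‖(N0, N1)‖ₑ / ‖(D0, D1)‖ₑ) := by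
    set k := ENNReal.ofReal (1 + 2 * (1 + |u|) / |u - a|) with hk
    have hk0 : k ≠ 0 := by
      rw [hk, Ne, ENNReal.ofReal_eq_zero, not_le]
      positivity
    have hkt : k ≠ ∞ := ENNReal.ofReal_ne_top
    have e1 : (‖D0 + u • D1‖ₑ)⁻¹ ≤ k * (‖(D0, D1)‖ₑ)⁻¹ := by
      have e2 := ENNReal.inv_le_inv.2 hDe
      rw [ENNReal.mul_inv (Or.inl hk0) (Or.inl hkt)] at e2
      calc (‖D0 + u • D1‖ₑ)⁻¹ = k * (k⁻¹ * (‖D0 + u • D1‖ₑ)⁻¹) := by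
            rw [← mul_assoc, ENNReal.mul_inv_cancel hk0 hkt, one_mul]
        _ ≤ k * (‖(D0, D1)‖ₑ)⁻¹ := mul_le_mul_right e2 k
    rw [div_eq_mul_inv, div_eq_mul_inv, hR, ENNReal.ofReal_mul hu1.le]
    calc ‖N0 + u • N1‖ₑ * (‖D0 + u • D1‖ₑ)⁻¹ ≤
          (ENNReal.ofReal (1 + |u|) * ‖(N0, N1)‖ₑ) * (k * (‖(D0, D1)‖ₑ)⁻¹) :=
          mul_le_mul' hNe e1
      _ = _ := by ring
  have hRq : R ^ q ≤ hk q a u := by
    have e1 : R = (1 + |u|) + 2 * ((1 + |u|) ^ 2 * |u - a|⁻¹) := by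
      rw [hR]
      field_simp
    rw [e1, hk]
    refine (real_rpow_add_le hu1.le (by positivity) h0.le h1).trans ?_
    refine add_le_add le_rfl ?_
    rw [Real.mul_rpow (by norm_num) (by positivity), Real.mul_rpow (by positivity) (by positivity),
      ← Real.rpow_natCast (1 + |u|) 2, ← Real.rpow_mul hu1.le, ← Real.rpow_neg_one |u - a|,
      ← Real.rpow_mul hua.le]
    have e2 : (2 : ℝ) ^ q ≤ 2 := by
      calc (2 : ℝ) ^ q ≤ 2 ^ (1 : ℝ) := Real.rpow_le_rpow_of_exponent_le (by norm_num) h1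
        _ = 2 := Real.rpow_one 2
    have e3 : ((2 : ℕ) : ℝ) * q = 2 * q := by norm_num
    have e4 : (-1 : ℝ) * q = -q := by ring
    rw [e3, e4]
    exact mul_le_mul_of_nonneg_right e2 (by positivity)
  calc (‖N0 + u • N1‖ₑ / ‖D0 + u • D1‖ₑ) ^ q ≤
        (ENNReal.ofReal R * (‖(N0, N1)‖ₑ / ‖(D0, D1)‖ₑ)) ^ q :=
        ENNReal.rpow_le_rpow hratio h0.le
    _ = ENNReal.ofReal (R ^ q) * (‖(N0, N1)‖ₑ / ‖(D0, D1)‖ₑ) ^ q := by
        rw [ENNReal.mul_rpow_of_nonneg _ _ h0.le, ENNReal.ofReal_rpow_of_pos hR0]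
    _ ≤ _ := mul_le_mul_left (ENNReal.ofReal_le_ofReal hRq) _

theorem Reg.noAtom (h : Reg C0 c0 ν) (a : ℝ) : ν {a} = 0 := by
  refine le_antisymm ((h.up {a}).trans (le_of_eq ?_)) bot_le
  rw [withDensity_apply _ (measurableSet_singleton a), Measure.restrict_singleton]
  simp

/-- **one variable, upper bound** -/
theorem one_up (h : Reg C0 c0 ν) {q : ℝ} (h0 : 0 < q) (h1 : q < 1 / 2) (N0 N1 : E)
    (D0 D1 : F) :
    ∫⁻ u, (‖N0 + u • N1‖ₑ / ‖D0 + u • D1‖ₑ) ^ q ∂ν ≤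
      Cu C0 q * (‖(N0, N1)‖ₑ / ‖(D0, D1)‖ₑ) ^ q := by
  obtain ⟨a, ha⟩ := ratio_le N0 N1 D0 D1
  have hm : Measurable (fun u => ENNReal.ofReal (hk q a u)) := by
    unfold hk
    fun_prop
  calc ∫⁻ u, (‖N0 + u • N1‖ₑ / ‖D0 + u • D1‖ₑ) ^ q ∂ν ≤
        ∫⁻ u, ENNReal.ofReal (hk q a u) * (‖(N0, N1)‖ₑ / ‖(D0, D1)‖ₑ) ^ q ∂ν := by
        refine lintegral_mono_ae ?_
        have h2 : ∀ᵐ u ∂ν, u ≠ a := by
          rw [ae_iff]
          simpa using h.noAtom a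
        filter_upwards [h2] with u hu
        exact ha u hu q h0 (by linarith)
    _ = (∫⁻ u, ENNReal.ofReal (hk q a u) ∂ν) * (‖(N0, N1)‖ₑ / ‖(D0, D1)‖ₑ) ^ q :=
        lintegral_mul_const _ hm
    _ ≤ _ := mul_le_mul_left (hk_integral_le h h0 h1 a) _

/-- the two symmetric values of an affine function -/
theorem sym_ge (N0 N1 : E) {u : ℝ} (hu : 1 / 2 ≤ u) (hu1 : u ≤ 1) :
    ‖(N0, N1)‖ₑ ≤ ‖N0 + u • N1‖ₑ + ‖N0 + (-u) • N1‖ₑ := by
  have hu0 : 0 < u := by linarith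
  have h1 : ‖(2 : ℝ) • N0‖ ≤ ‖N0 + u • N1‖ + ‖N0 + (-u) • N1‖ := by
    have : (2 : ℝ) • N0 = (N0 + u • N1) + (N0 + (-u) • N1) := by
      rw [neg_smul, two_smul]; abel
    rw [this]
    exact norm_add_le _ _
  have h2 : ‖(2 * u) • N1‖ ≤ ‖N0 + u • N1‖ + ‖N0 + (-u) • N1‖ := by
    have : (2 * u) • N1 = (N0 + u • N1) - (N0 + (-u) • N1) := by
      rw [neg_smul, mul_smul, two_smul]; abel
    rw [this]
    exact norm_sub_le _ _
  rw [norm_smul, Real.norm_eq_abs] at h1 h2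
  rw [abs_of_pos (by norm_num)] at h1
  rw [abs_of_pos (by linarith)] at h2
  rw [← ofReal_norm_eq_enorm, ← ofReal_norm_eq_enorm, ← ofReal_norm_eq_enorm,
    ← ENNReal.ofReal_add (norm_nonneg _) (norm_nonneg _)]
  refine ENNReal.ofReal_le_ofReal ?_
  rw [Prod.norm_def]
  refine max_le ?_ ?_
  · simp only
    linarith [norm_nonneg N0]
  · simp only
    nlinarith [norm_nonneg N1]

/-- **one variable, lower bound** -/
theorem one_low (h : Reg C0 c0 ν) {q : ℝ} (h0 : 0 < q) (h1 : q ≤ 1) (N0 N1 : E)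
    (D0 D1 : F) :
    cl c0 * (‖(N0, N1)‖ₑ / ‖(D0, D1)‖ₑ) ^ q ≤
      ∫⁻ u, (‖N0 + u • N1‖ₑ / ‖D0 + u • D1‖ₑ) ^ q ∂ν := by
  set f : ℝ → ℝ≥0∞ := fun u => (‖N0 + u • N1‖ₑ / ‖D0 + u • D1‖ₑ) ^ q with hf
  refine le_trans ?_ (h.le_lintegral f)
  rw [cl, ENNReal.div_eq_inv_mul, mul_assoc, mul_left_comm]
  refine mul_le_mul_right ?_ _
  -- the two pieces
  have hsub : Icc (1 / 2 : ℝ) 1 ∪ Icc (-1 : ℝ) (-1 / 2) ⊆ Icc (-1 : ℝ) 1 := by
    intro x hx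
    rcases hx with hx | hx
    · exact ⟨by linarith [hx.1], hx.2⟩
    · exact ⟨hx.1, by linarith [hx.2]⟩
  have hdisj : Disjoint (Icc (1 / 2 : ℝ) 1) (Icc (-1 : ℝ) (-1 / 2)) := by
    rw [Set.disjoint_left]
    intro x hx hx'
    linarith [hx.1, hx'.2]
  have hm : Measurable f := by
    simp only [hf]
    have m1 : Measurable fun u : ℝ => ‖N0 + u • N1‖ₑ := by
      have : Continuous fun u : ℝ => N0 + u • N1 := by fun_prop
      exact this.enorm.measurable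
    have m2 : Measurable fun u : ℝ => ‖D0 + u • D1‖ₑ := by
      have : Continuous fun u : ℝ => D0 + u • D1 := by fun_prop
      exact this.enorm.measurable
    exact (m1.div m2).pow_const q
  have h2 : ∫⁻ u in Icc (-1 : ℝ) (-1 / 2), f u = ∫⁻ u in Icc (1 / 2 : ℝ) 1, f (-u) := by
    rw [← lintegral_indicator measurableSet_Icc, ← lintegral_indicator measurableSet_Icc,
      ← lintegral_neg_eq_self]
    refine lintegral_congr fun x => ?_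
    by_cases hx : x ∈ Icc (1 / 2 : ℝ) 1
    · have hx' : -x ∈ Icc (-1 : ℝ) (-1 / 2) := ⟨by linarith [hx.2], by linarith [hx.1]⟩
      rw [indicator_of_mem hx, indicator_of_mem hx']
    · have hx' : -x ∉ Icc (-1 : ℝ) (-1 / 2) := fun h => hx ⟨by linarith [h.2], by linarith [h.1]⟩
      rw [indicator_of_notMem hx, indicator_of_notMem hx']
  have h3 : ∫⁻ u in Icc (1 / 2 : ℝ) 1, (f u + f (-u)) ≤ ∫⁻ u in Icc (-1 : ℝ) 1, f u := by
    refine le_trans (le_of_eq ?_) (lintegral_mono_set hsub)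
    rw [lintegral_union measurableSet_Icc hdisj, h2, lintegral_add_left hm]
  refine le_trans ?_ h3
  -- pointwise lower bound
  have hpt : ∀ u ∈ Icc (1 / 2 : ℝ) 1,
      2⁻¹ * (‖(N0, N1)‖ₑ / ‖(D0, D1)‖ₑ) ^ q ≤ f u + f (-u) := by
    intro u hu
    have hD : ∀ v : ℝ, |v| ≤ 1 → ‖D0 + v • D1‖ₑ ≤ 2 * ‖(D0, D1)‖ₑ := by
      intro v hv
      rw [← ofReal_norm_eq_enorm, ← ofReal_norm_eq_enorm]
      have : (2 : ℝ≥0∞) = ENNReal.ofReal 2 := by simp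
      rw [this, ← ENNReal.ofReal_mul (by norm_num)]
      refine ENNReal.ofReal_le_ofReal ?_
      have e1 : ‖D0‖ ≤ ‖(D0, D1)‖ := norm_fst_le (D0, D1)
      have e2 : ‖D1‖ ≤ ‖(D0, D1)‖ := norm_snd_le (D0, D1)
      calc ‖D0 + v • D1‖ ≤ ‖D0‖ + ‖v • D1‖ := norm_add_le _ _
        _ = ‖D0‖ + |v| * ‖D1‖ := by rw [norm_smul, Real.norm_eq_abs]
        _ ≤ ‖(D0, D1)‖ + 1 * ‖(D0, D1)‖ := by gcongr
        _ = _ := by ring
    have k1 : f u + f (-u) ≥ ((‖N0 + u • N1‖ₑ + ‖N0 + (-u) • N1‖ₑ) / (2 * ‖(D0, D1)‖ₑ)) ^ q := by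
      have j1 : (‖N0 + u • N1‖ₑ / (2 * ‖(D0, D1)‖ₑ)) ^ q ≤ f u :=
        ENNReal.rpow_le_rpow (ENNReal.div_le_div_left
          (hD u (by rw [abs_of_pos (by linarith [hu.1])]; exact hu.2)) _) h0.le
      have j2 : (‖N0 + (-u) • N1‖ₑ / (2 * ‖(D0, D1)‖ₑ)) ^ q ≤ f (-u) :=
        ENNReal.rpow_le_rpow (ENNReal.div_le_div_left
          (hD (-u) (by rw [abs_neg, abs_of_pos (by linarith [hu.1])]; exact hu.2)) _) h0.le
      rw [ENNReal.add_div]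
      exact (ENNReal.rpow_add_le_add_rpow _ _ h0.le h1).trans (add_le_add j1 j2)
    refine le_trans ?_ k1
    have k2 : (‖(N0, N1)‖ₑ / (2 * ‖(D0, D1)‖ₑ)) ^ q ≤
        ((‖N0 + u • N1‖ₑ + ‖N0 + (-u) • N1‖ₑ) / (2 * ‖(D0, D1)‖ₑ)) ^ q :=
      ENNReal.rpow_le_rpow (ENNReal.div_le_div_right (sym_ge N0 N1 hu.1 hu.2) _) h0.le
    refine le_trans ?_ k2
    have k3 : ‖(N0, N1)‖ₑ / (2 * ‖(D0, D1)‖ₑ) = 2⁻¹ * (‖(N0, N1)‖ₑ / ‖(D0, D1)‖ₑ) := by
      rw [div_eq_mul_inv, div_eq_mul_inv, ENNReal.mul_inv (by simp) (by simp)]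
      ring
    rw [k3, ENNReal.mul_rpow_of_nonneg _ _ h0.le]
    refine mul_le_mul_left ?_ _
    have k4 : (2⁻¹ : ℝ≥0∞) ^ (1 : ℝ) ≤ 2⁻¹ ^ q :=
      ENNReal.rpow_le_rpow_of_exponent_ge (ENNReal.inv_le_one.2 one_le_two) h1
    rwa [ENNReal.rpow_one] at k4
  have h4 : ∫⁻ _u in Icc (1 / 2 : ℝ) 1, 2⁻¹ * (‖(N0, N1)‖ₑ / ‖(D0, D1)‖ₑ) ^ q ≤
      ∫⁻ u in Icc (1 / 2 : ℝ) 1, (f u + f (-u)) :=
    setLIntegral_mono' measurableSet_Icc hpt
  refine le_trans (le_of_eq ?_) h4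
  rw [setLIntegral_const, Real.volume_Icc]
  have h5 : ENNReal.ofReal (1 - 1 / 2) = 2⁻¹ := by
    rw [show (1 : ℝ) - 1 / 2 = 2⁻¹ by norm_num, ENNReal.ofReal_inv_of_pos (by norm_num)]
    simp
  rw [h5]
  have h6 : (4 : ℝ≥0∞)⁻¹ = 2⁻¹ * 2⁻¹ := by
    rw [← ENNReal.mul_inv (by simp) (by simp)]
    norm_num
  rw [h6]
  ring

theorem cl_ne_zero (hc : 0 < c0) : cl c0 ≠ 0 := by
  unfold cl
  rw [Ne, ENNReal.div_eq_zero_iff]
  rw [not_or]
  exact ⟨by rw [ENNReal.ofReal_eq_zero, not_le]; exact hc, by norm_num⟩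

theorem cl_ne_top : cl c0 ≠ ∞ := by
  unfold cl
  exact ENNReal.div_ne_top ENNReal.ofReal_ne_top (by norm_num)

/-! ### two variables -/

/-- bi-affine functions -/
def bia (n : E × E × E × E) (u v : ℝ) : E := (n.1 + v • n.2.2.1) + u • (n.2.1 + v • n.2.2.2)

theorem two_up (h : Reg C0 c0 ν) {q : ℝ} (h0 : 0 < q) (h1 : q < 1 / 2) (n : E × E × E × E)
    (d : F × F × F × F) :
    ∫⁻ v, ∫⁻ u, (‖bia n u v‖ₑ / ‖bia d u v‖ₑ) ^ q ∂ν ∂ν ≤
      Cu C0 q ^ 2 * (‖n‖ₑ / ‖d‖ₑ) ^ q := by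
  have h2 : ∀ v, ∫⁻ u, (‖bia n u v‖ₑ / ‖bia d u v‖ₑ) ^ q ∂ν ≤
      Cu C0 q * (‖(n.1, n.2.1) + v • (n.2.2.1, n.2.2.2)‖ₑ /
        ‖(d.1, d.2.1) + v • (d.2.2.1, d.2.2.2)‖ₑ) ^ q := by
    intro v
    have := one_up h h0 h1 (n.1 + v • n.2.2.1) (n.2.1 + v • n.2.2.2) (d.1 + v • d.2.2.1)
      (d.2.1 + v • d.2.2.2)
    exact this
  refine (lintegral_mono h2).trans ?_
  rw [lintegral_const_mul' _ _ (Cu_ne_top h1), sq, mul_assoc]
  refine mul_le_mul_right ?_ _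
  refine (one_up h h0 h1 (n.1, n.2.1) (n.2.2.1, n.2.2.2) (d.1, d.2.1)
    (d.2.2.1, d.2.2.2)).trans (le_of_eq ?_)
  have e1 : ‖((n.1, n.2.1), (n.2.2.1, n.2.2.2))‖ₑ = ‖n‖ₑ := by
    rw [← ofReal_norm_eq_enorm, ← ofReal_norm_eq_enorm]
    congr 1
    simp only [Prod.norm_def]
    rw [max_assoc]
  have e2 : ‖((d.1, d.2.1), (d.2.2.1, d.2.2.2))‖ₑ = ‖d‖ₑ := by
    rw [← ofReal_norm_eq_enorm, ← ofReal_norm_eq_enorm]
    congr 1
    simp only [Prod.norm_def]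
    rw [max_assoc]
  rw [e1, e2]

theorem two_low (h : Reg C0 c0 ν) {q : ℝ} (h0 : 0 < q) (h1 : q ≤ 1) (n : E × E × E × E)
    (d : F × F × F × F) :
    cl c0 ^ 2 * (‖n‖ₑ / ‖d‖ₑ) ^ q ≤ ∫⁻ v, ∫⁻ u, (‖bia n u v‖ₑ / ‖bia d u v‖ₑ) ^ q ∂ν ∂ν := by
  have h2 : ∀ v, cl c0 * (‖(n.1, n.2.1) + v • (n.2.2.1, n.2.2.2)‖ₑ /
        ‖(d.1, d.2.1) + v • (d.2.2.1, d.2.2.2)‖ₑ) ^ q ≤
      ∫⁻ u, (‖bia n u v‖ₑ / ‖bia d u v‖ₑ) ^ q ∂ν := by
    intro v
    exact one_low h h0 h1 (n.1 + v • n.2.2.1) (n.2.1 + v • n.2.2.2) (d.1 + v • d.2.2.1)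
      (d.2.1 + v • d.2.2.2)
  refine le_trans ?_ (lintegral_mono h2)
  rw [lintegral_const_mul' _ _ cl_ne_top, sq, mul_assoc]
  refine mul_le_mul_right ?_ _
  refine le_trans (le_of_eq ?_) (one_low h h0 h1 (n.1, n.2.1) (n.2.2.1, n.2.2.2) (d.1, d.2.1)
    (d.2.2.1, d.2.2.2))
  have e1 : ‖((n.1, n.2.1), (n.2.2.1, n.2.2.2))‖ₑ = ‖n‖ₑ := by
    rw [← ofReal_norm_eq_enorm, ← ofReal_norm_eq_enorm]
    congr 1
    simp only [Prod.norm_def]
    rw [max_assoc]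
  have e2 : ‖((d.1, d.2.1), (d.2.2.1, d.2.2.2))‖ₑ = ‖d‖ₑ := by
    rw [← ofReal_norm_eq_enorm, ← ofReal_norm_eq_enorm]
    congr 1
    simp only [Prod.norm_def]
    rw [max_assoc]
  rw [e1, e2]

/-! ### reverse Hölder -/

/-- constant of the one-variable reverse Hölder inequality -/
noncomputable def CR1 (C0 c0 s : ℝ) : ℝ≥0∞ := Cu C0 (2 * s) ^ (1 / 2 : ℝ) * (cl c0)⁻¹

/-- constant of the two-variable reverse Hölder inequality -/
noncomputable def CR2 (C0 c0 s : ℝ) : ℝ≥0∞ := Cu C0 (2 * s) * (cl c0 ^ 2)⁻¹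

theorem CR1_ne_top {s : ℝ} (hc : 0 < c0) (hs : s < 1 / 4) : CR1 C0 c0 s ≠ ∞ := by
  unfold CR1
  refine ENNReal.mul_ne_top (ENNReal.rpow_ne_top_of_nonneg (by norm_num)
    (Cu_ne_top (by linarith))) (ENNReal.inv_ne_top.2 (cl_ne_zero hc))

theorem CR2_ne_top {s : ℝ} (hc : 0 < c0) (hs : s < 1 / 4) : CR2 C0 c0 s ≠ ∞ := by
  unfold CR2
  exact ENNReal.mul_ne_top (Cu_ne_top (by linarith))
    (ENNReal.inv_ne_top.2 (pow_ne_zero 2 (cl_ne_zero hc)))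

theorem RH1 (h : Reg C0 c0 ν) {s : ℝ} (h0 : 0 < s) (h1 : s < 1 / 4) (N0 N1 : E) (D0 D1 : F) :
    (∫⁻ u, (‖N0 + u • N1‖ₑ / ‖D0 + u • D1‖ₑ) ^ (2 * s) ∂ν) ^ (1 / 2 : ℝ) ≤
      CR1 C0 c0 s * ∫⁻ u, (‖N0 + u • N1‖ₑ / ‖D0 + u • D1‖ₑ) ^ s ∂ν := by
  have k1 := one_up h (q := 2 * s) (by linarith) (by linarith) N0 N1 D0 D1
  have k2 := one_low h (q := s) h0 (by linarith) N0 N1 D0 D1
  set r := ‖(N0, N1)‖ₑ / ‖(D0, D1)‖ₑ
  have k3 := ENNReal.rpow_le_rpow k1 (show (0 : ℝ) ≤ 1 / 2 by norm_num)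
  refine k3.trans ?_
  rw [ENNReal.mul_rpow_of_nonneg _ _ (by norm_num), ← ENNReal.rpow_mul,
    show 2 * s * (1 / 2) = s by ring, CR1, mul_assoc]
  refine mul_le_mul_right ?_ _
  calc r ^ s = (cl c0)⁻¹ * (cl c0 * r ^ s) := by
        rw [← mul_assoc, ENNReal.inv_mul_cancel (cl_ne_zero h.c0pos) cl_ne_top, one_mul]
    _ ≤ _ := mul_le_mul_right k2 _

theorem RH2 (h : Reg C0 c0 ν) {s : ℝ} (h0 : 0 < s) (h1 : s < 1 / 4) (n : E × E × E × E)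
    (d : F × F × F × F) :
    (∫⁻ v, ∫⁻ u, (‖bia n u v‖ₑ / ‖bia d u v‖ₑ) ^ (2 * s) ∂ν ∂ν) ^ (1 / 2 : ℝ) ≤
      CR2 C0 c0 s * ∫⁻ v, ∫⁻ u, (‖bia n u v‖ₑ / ‖bia d u v‖ₑ) ^ s ∂ν ∂ν := by
  have k1 := two_up h (q := 2 * s) (by linarith) (by linarith) n d
  have k2 := two_low h (q := s) h0 (by linarith) n d
  set r := ‖n‖ₑ / ‖d‖ₑ
  have hcl : cl c0 ^ 2 ≠ 0 := pow_ne_zero 2 (cl_ne_zero h.c0pos)
  have hct : cl c0 ^ 2 ≠ ∞ := ENNReal.pow_ne_top cl_ne_top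
  have k3 := ENNReal.rpow_le_rpow k1 (show (0 : ℝ) ≤ 1 / 2 by norm_num)
  refine k3.trans ?_
  rw [ENNReal.mul_rpow_of_nonneg _ _ (by norm_num), ← ENNReal.rpow_mul,
    show 2 * s * (1 / 2) = s by ring, CR2, mul_assoc]
  have k4 : (Cu C0 (2 * s) ^ 2) ^ (1 / 2 : ℝ) = Cu C0 (2 * s) := by
    rw [← ENNReal.rpow_natCast, ← ENNReal.rpow_mul]
    norm_num
  rw [k4]
  refine mul_le_mul_right ?_ _
  calc r ^ s = (cl c0 ^ 2)⁻¹ * (cl c0 ^ 2 * r ^ s) := by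
        rw [← mul_assoc, ENNReal.inv_mul_cancel hcl hct, one_mul]
    _ ≤ _ := mul_le_mul_right k2 _

/-! ### complex-valued forms with `ENNReal.ofReal` -/

theorem ofReal_ratio {x y : ℂ} (hy : y ≠ 0) {q : ℝ} (h0 : 0 ≤ q) :
    ENNReal.ofReal ((‖x‖ / ‖y‖) ^ q) = (‖x‖ₑ / ‖y‖ₑ) ^ q := by
  have hy' : 0 < ‖y‖ := norm_pos_iff.2 hy
  rw [← ENNReal.ofReal_rpow_of_nonneg (by positivity) h0, ENNReal.ofReal_div_of_pos hy',
    ofReal_norm_eq_enorm, ofReal_norm_eq_enorm]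

theorem RH1_complex (h : Reg C0 c0 ν) {s : ℝ} (h0 : 0 < s) (h1 : s < 1 / 4)
    {N0 N1 D0 D1 : ℂ} (hD : ∀ u : ℝ, D0 + u * D1 ≠ 0) :
    ∫⁻ u, ENNReal.ofReal ((‖N0 + u * N1‖ / ‖D0 + u * D1‖) ^ (2 * s)) ∂ν ≤
      CR1 C0 c0 s ^ 2 *
        (∫⁻ u, ENNReal.ofReal ((‖N0 + u * N1‖ / ‖D0 + u * D1‖) ^ s) ∂ν) ^ 2 := by
  have e : ∀ q : ℝ, 0 ≤ q → ∫⁻ u, ENNReal.ofReal ((‖N0 + u * N1‖ / ‖D0 + u * D1‖) ^ q) ∂ν =
      ∫⁻ u : ℝ, (‖N0 + u • N1‖ₑ / ‖D0 + u • D1‖ₑ) ^ q ∂ν := by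
    intro q hq
    refine lintegral_congr fun u => ?_
    rw [ofReal_ratio (hD u) hq, Complex.real_smul, Complex.real_smul]
  rw [e _ (by linarith), e _ h0.le]
  have k := RH1 h h0 h1 N0 N1 D0 D1
  have k2 := ENNReal.rpow_le_rpow k (show (0 : ℝ) ≤ 2 by norm_num)
  rw [← ENNReal.rpow_mul] at k2
  rw [show (1 / 2 : ℝ) * 2 = 1 by norm_num, ENNReal.rpow_one] at k2
  rw [ENNReal.mul_rpow_of_nonneg _ _ (by norm_num : (0 : ℝ) ≤ 2)] at k2
  have e2 : ∀ x : ℝ≥0∞, x ^ (2 : ℝ) = x ^ (2 : ℕ) := fun x => by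
    rw [← ENNReal.rpow_natCast]
    norm_num
  rw [e2, e2] at k2
  exact k2

/-- upper bound of the negative-type moment -/
theorem one_up_complex (h : Reg C0 c0 ν) {q : ℝ} (h0 : 0 < q) (h1 : q < 1 / 2)
    {N0 N1 D0 D1 : ℂ} (hD : ∀ u : ℝ, D0 + u * D1 ≠ 0) :
    ∫⁻ u, ENNReal.ofReal ((‖N0 + u * N1‖ / ‖D0 + u * D1‖) ^ q) ∂ν ≤
      Cu C0 q * ENNReal.ofReal ((max ‖N0‖ ‖N1‖ / max ‖D0‖ ‖D1‖) ^ q) := by
  have hD' : 0 < max ‖D0‖ ‖D1‖ := by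
    rcases eq_or_ne D1 0 with h2 | h2
    · have := hD 0
      rw [h2, mul_zero, add_zero] at this
      exact lt_max_of_lt_left (norm_pos_iff.2 this)
    · exact lt_max_of_lt_right (norm_pos_iff.2 h2)
  have k := one_up h h0 h1 N0 N1 D0 D1
  have e : ∫⁻ u, ENNReal.ofReal ((‖N0 + u * N1‖ / ‖D0 + u * D1‖) ^ q) ∂ν =
      ∫⁻ u : ℝ, (‖N0 + u • N1‖ₑ / ‖D0 + u • D1‖ₑ) ^ q ∂ν := by
    refine lintegral_congr fun u => ?_
    rw [ofReal_ratio (hD u) h0.le, Complex.real_smul, Complex.real_smul]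
  rw [e]
  refine k.trans (le_of_eq ?_)
  congr 1
  rw [← ENNReal.ofReal_rpow_of_nonneg (by positivity) h0.le, ENNReal.ofReal_div_of_pos hD',
    ← ofReal_norm_eq_enorm, ← ofReal_norm_eq_enorm]
  rfl

end P365L.X
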